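import Vale.Agent.P235.H684.Harm

set_option linter.all false

/-!
# P235, K5, block gluing (helper684): the chain of the ADHESIONS along a path of an elimination tree

The bags may be of any size: for a vertex `v` introduced in the torso `H_t` take
`E.A v = S_t ∪ {earlier new vertices of H_t}`. The Markov law `PM (KK E μ)` and its bag laws
(`PM_bag`) are those of `H684`. The states are the patterns on the adhesions
`E.A (q (s i + 1)) = S_(t_(i+1))` only (`s i` = position on the path of the last vertex in the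
`i`-th torso), so the comparison needs `card ≤ k` for the adhesions only.
-/

namespace Vale.Agent.P235.K5.H684

open Finset Function
open Vale.Agent.P235
open Vale.Agent.P235.H684

variable {n : ℕ}

/-- the positions `0 = s 0 < s 1 < … < s M = N` of the last vertices of the blocks on a path -/
structure Blk (E : Elim n) (q : ℕ → Fin n) (N : ℕ) (s : ℕ → ℕ) (M : ℕ) : Prop where
  pos : 0 < M
  zero : s 0 = 0
  lt : ∀ i < M, s i < s (i + 1)
  last : s M = N
  sub : ∀ i < M, E.A (q (s i + 1)) ⊆ E.B (q (s (i + 1)))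

/-- a coupling of the block laws along a path, in which the last vertex is never guessed better
than `c` from the first bag -/
structure CoupB (E : Elim n) (μ : Fin n → (Fin n → Bool) → ℝ) (q : ℕ → Fin n) (N : ℕ)
    (s : ℕ → ℕ) (M : ℕ) (c : ℝ)
    {Ω : Type} [Fintype Ω] (w : Ω → ℝ) (X : ℕ → Ω → (Fin n → Bool)) : Prop where
  nonneg : ∀ ω, 0 ≤ w ω
  bag : ∀ i ≤ M, ∀ h : (Fin n → Bool) → ℝ, DepOn (E.B (q (s i)) : Set (Fin n)) h →
    ∑ ω, w ω * h (X i ω) = Ex (μ (q (s i))) h
  agree : ∀ i < M, ∀ ω, w ω ≠ 0 → ∀ v ∈ E.A (q (s i + 1)), X i ω v = X (i + 1) ω v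
  far : ∀ f : (Fin n → Bool) → ℝ, (∀ Y, f Y = 0 ∨ f Y = 1) →
    DepOn (E.B (q 0) : Set (Fin n)) f →
    c ≤ ∑ ω, w ω * |f (X 0 ω) - (if X M ω (q N) = true then 1 else 0)|

section path

variable {E : Elim n} {q : ℕ → Fin n} {N : ℕ} {s : ℕ → ℕ} {M : ℕ}

theorem Blk.mono (hs : Blk E q N s M) {i j : ℕ} (hij : i ≤ j) (hj : j ≤ M) : s i ≤ s j := by
  induction j, hij using Nat.le_induction with
  | base => exact le_rfl
  | succ j hij ih => exact (ih (by omega)).trans (hs.lt j (by omega)).le

theorem Blk.le (hs : Blk E q N s M) {i : ℕ} (hi : i ≤ M) : s i ≤ N := by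
  rw [← hs.last]
  exact hs.mono hi le_rfl

theorem Blk.lt_N (hs : Blk E q N s M) {i : ℕ} (hi : i < M) : s i < N :=
  (hs.lt i hi).trans_le (hs.le hi)

/-- the shifted path -/
theorem shift (hp : Path E q N) {a : ℕ} (ha : a < N) : Path E (fun l => q (a + l)) (N - a) :=
  ⟨by omega, fun i hi => hp.par (a + i) (by omega), fun i hi => hp.ne (a + i) (by omega)⟩

/-- the sets on which the states live -/
def Db (E : Elim n) (q : ℕ → Fin n) (N : ℕ) (s : ℕ → ℕ) (M i : ℕ) : Finset (Fin n) :=
  if i < M then E.A (q (s i + 1)) else {q N}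

theorem Db_lt {i : ℕ} (h : i < M) : Db E q N s M i = E.A (q (s i + 1)) := if_pos h

theorem Db_last : Db E q N s M M = {q N} := if_neg (lt_irrefl _)

theorem Db_sub (hs : Blk E q N s M) (i : ℕ) (hi : i < M) :
    Db E q N s M i ⊆ E.B (q (s (i + 1))) := by
  rw [Db_lt hi]
  exact hs.sub i hi

theorem Db_succ_sub (hp : Path E q N) (hs : Blk E q N s M) (i : ℕ) (hi : i < M) :
    Db E q N s M (i + 1) ⊆ E.B (q (s (i + 1))) := by
  by_cases h : i + 1 < M
  · rw [Db_lt h]
    exact hp.A_sub (hs.lt_N h)
  · have h1 : i + 1 = M := by omega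
    rw [h1, Db_last, Finset.singleton_subset_iff, hs.last]
    exact Finset.mem_insert_self _ _

end path

/-! ### the pair laws -/

section pair

variable {E : Elim n} {q : ℕ → Fin n} {N : ℕ} {s : ℕ → ℕ} {M : ℕ}
  {K : Fin n → (Fin n → Bool) → Bool → ℝ}

/-- indicator -/
noncomputable def indB (E : Elim n) (q : ℕ → Fin n) (N : ℕ) (s : ℕ → ℕ) (M i : ℕ)
    (a X : Fin n → Bool) : ℝ := if mask (Db E q N s M i) X = a then 1 else 0

theorem indB_dep (i : ℕ) (a : Fin n → Bool) :
    DepOn (Db E q N s M i : Set (Fin n)) (indB E q N s M i a) := by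
  intro X Y h
  unfold indB
  rw [mask_dep (Db E q N s M i) X Y h]

theorem indB_nonneg (i : ℕ) (a X : Fin n → Bool) : 0 ≤ indB E q N s M i a X := by
  unfold indB; split_ifs <;> norm_num

theorem sum_indB (i : ℕ) (X : Fin n → Bool) (g : (Fin n → Bool) → ℝ) :
    ∑ a, g a * indB E q N s M i a X = g (mask (Db E q N s M i) X) := by
  unfold indB
  simp

/-- the masses of the states -/
noncomputable def nuB (K : Fin n → (Fin n → Bool) → Bool → ℝ) (E : Elim n) (q : ℕ → Fin n)
    (N : ℕ) (s : ℕ → ℕ) (M i : ℕ) (a : Fin n → Bool) : ℝ := PM K (indB E q N s M i a)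

/-- the masses of the pairs -/
noncomputable def ppB (K : Fin n → (Fin n → Bool) → Bool → ℝ) (E : Elim n) (q : ℕ → Fin n)
    (N : ℕ) (s : ℕ → ℕ) (M i : ℕ) (a b : Fin n → Bool) : ℝ :=
  PM K fun X => indB E q N s M i a X * indB E q N s M (i + 1) b X

theorem sum_ppB (i : ℕ) (g : (Fin n → Bool) → (Fin n → Bool) → ℝ) :
    ∑ a, ∑ b, ppB K E q N s M i a b * g a b =
      PM K fun X => g (mask (Db E q N s M i) X) (mask (Db E q N s M (i + 1)) X) := by
  have h1 : (fun X => g (mask (Db E q N s M i) X) (mask (Db E q N s M (i + 1)) X)) =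
      fun X => ∑ a, ∑ b, g a b * (indB E q N s M i a X * indB E q N s M (i + 1) b X) := by
    funext X
    have h2 : ∀ a, ∑ b, g a b * (indB E q N s M i a X * indB E q N s M (i + 1) b X) =
        g a (mask (Db E q N s M (i + 1)) X) * indB E q N s M i a X := by
      intro a
      rw [← sum_indB (E := E) (q := q) (N := N) (s := s) (M := M) (i + 1) X (g a),
        Finset.sum_mul]
      exact Finset.sum_congr rfl fun b _ => by ring
    rw [Finset.sum_congr rfl fun a _ => h2 a]
    exact (sum_indB (E := E) (q := q) (N := N) (s := s) (M := M) i X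
      fun a => g a (mask (Db E q N s M (i + 1)) X)).symm
  rw [h1, PM_sum]
  refine Finset.sum_congr rfl fun a _ => ?_
  rw [PM_sum]
  refine Finset.sum_congr rfl fun b _ => ?_
  rw [PM_smul, mul_comm]
  rfl

theorem sum_nuB (i : ℕ) (g : (Fin n → Bool) → ℝ) :
    ∑ a, nuB K E q N s M i a * g a = PM K fun X => g (mask (Db E q N s M i) X) := by
  have h1 : (fun X => g (mask (Db E q N s M i) X)) =
      fun X => ∑ a, g a * indB E q N s M i a X := by
    funext X
    rw [sum_indB]
  rw [h1, PM_sum]
  refine Finset.sum_congr rfl fun a _ => ?_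
  rw [PM_smul, mul_comm]
  rfl

/-- the pair laws of the chain of the adhesions -/
noncomputable def PLB (hK : Ker E.A K) (q : ℕ → Fin n) (N : ℕ) (s : ℕ → ℕ) (M : ℕ) :
    H254.PairLaw (Fin n → Bool) M where
  mu := nuB K E q N s M
  p := ppB K E q N s M
  p_nonneg i a b := PM_nonneg hK fun X => mul_nonneg (indB_nonneg _ _ _) (indB_nonneg _ _ _)
  mu_nonneg i a := PM_nonneg hK fun X => indB_nonneg _ _ _
  left := by
    intro i hi a
    have h1 := sum_ppB (K := K) (E := E) (q := q) (N := N) (s := s) (M := M) i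
      fun a' _ => if a' = a then 1 else 0
    have h2 : ∑ a', ∑ b, ppB K E q N s M i a' b * (if a' = a then (1 : ℝ) else 0) =
        ∑ b, ppB K E q N s M i a b := by
      rw [Finset.sum_eq_single a]
      · simp
      · intro b _ hb
        simp [hb]
      · simp
    rw [← h2, h1]
    rfl
  right := by
    intro i hi b
    have h1 := sum_ppB (K := K) (E := E) (q := q) (N := N) (s := s) (M := M) i
      fun _ b' => if b' = b then 1 else 0
    have h2 : ∑ a, ∑ b', ppB K E q N s M i a b' * (if b' = b then (1 : ℝ) else 0) =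
        ∑ a, ppB K E q N s M i a b := by
      refine Finset.sum_congr rfl fun a _ => ?_
      simp
    rw [← h2, h1]
    rfl

theorem atMostB (hK : Ker E.A K) {k : ℕ} (hk : 1 ≤ k)
    (hA : ∀ i < M, (E.A (q (s i + 1))).card ≤ k) :
    H254.AtMost (PLB hK q N s M) (2 ^ k) := by
  classical
  intro i _
  refine ⟨(Db E q N s M i).powerset.image fun s v => decide (v ∈ s), ?_, fun a ha => ?_⟩
  · refine Finset.card_image_le.trans ?_
    rw [Finset.card_powerset]
    refine Nat.pow_le_pow_right (by norm_num) ?_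
    unfold Db
    split_ifs with h
    · exact hA i h
    · simpa using hk
  · by_contra hcon
    apply ha
    show PM K (indB E q N s M i a) = 0
    have h0 : indB E q N s M i a = fun _ => 0 := by
      funext X
      unfold indB
      rw [if_neg]
      intro h
      apply hcon
      rw [Finset.mem_image]
      refine ⟨(Db E q N s M i).filter fun v => X v = true, ?_, ?_⟩
      · rw [Finset.mem_powerset]
        exact Finset.filter_subset _ _
      · rw [← h]
        funext v
        by_cases hv : v ∈ Db E q N s M i <;> by_cases hx : X v = true <;> simp [mask, hv, hx]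
    rw [h0, PM_const hK]

/-- the coupling has the pair laws of the chain -/
theorem hasPairsB {μ : Fin n → (Fin n → Bool) → ℝ} (hμ : ∀ t, IsLaw (μ t)) (hc : Cons E μ)
    (hp : Path E q N) (hs : Blk E q N s M) {c : ℝ} {Ω : Type} [Fintype Ω] {w : Ω → ℝ}
    {X : ℕ → Ω → (Fin n → Bool)} (hX : CoupB E μ q N s M c w X) :
    H254.HasPairs (PLB (KK_ker (E := E) hμ) q N s M) w
      fun i ω => mask (Db E q N s M i) (X (min (i + 1) M) ω) where
  nonneg := hX.nonneg
  pair := by
    intro i hi g
    have h1 := sum_ppB (K := KK E μ) (E := E) (q := q) (N := N) (s := s) (M := M) i g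
    have hdep : DepOn (E.B (q (s (i + 1))) : Set (Fin n)) fun Y =>
        g (mask (Db E q N s M i) Y) (mask (Db E q N s M (i + 1)) Y) := by
      intro Y Z hYZ
      have e1 := mask_dep (Db E q N s M i) Y Z fun v hv =>
        hYZ v (Finset.mem_coe.2 (Db_sub hs i hi (Finset.mem_coe.1 hv)))
      have e2 := mask_dep (Db E q N s M (i + 1)) Y Z fun v hv =>
        hYZ v (Finset.mem_coe.2 (Db_succ_sub hp hs i hi (Finset.mem_coe.1 hv)))
      simp only [e1, e2]
    have h2 := PM_bag hμ hc (q (s (i + 1))) hdep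
    have h3 := hX.bag (i + 1) hi _ hdep
    show _ = ∑ a, ∑ b, ppB (KK E μ) E q N s M i a b * g a b
    rw [h1, h2, ← h3]
    refine Finset.sum_congr rfl fun ω _ => ?_
    by_cases hw : w ω = 0
    · rw [hw, zero_mul, zero_mul]
    · congr 1
      have hm1 : min (i + 1) M = i + 1 := by omega
      simp only [hm1]
      congr 1
      by_cases hi2 : i + 1 < M
      · have hm2 : min (i + 1 + 1) M = i + 1 + 1 := by omega
        rw [hm2]
        refine mask_dep _ _ _ fun v hv => ?_
        rw [Db_lt hi2] at hv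
        exact (hX.agree (i + 1) hi2 ω hw v (Finset.mem_coe.1 hv)).symm
      · have hm2 : min (i + 1 + 1) M = i + 1 := by omega
        rw [hm2]
  last := by
    intro g
    have hdep : DepOn (E.B (q (s M)) : Set (Fin n)) fun Y => g (mask (Db E q N s M M) Y) := by
      intro Y Z hYZ
      have e1 := mask_dep (Db E q N s M M) Y Z fun v hv => hYZ v (by
        rw [Db_last] at hv
        rw [Finset.mem_singleton.1 (Finset.mem_coe.1 hv), hs.last]
        exact Finset.mem_coe.2 (Finset.mem_insert_self _ _))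
      simp only [e1]
    have h1 := sum_nuB (K := KK E μ) (E := E) (q := q) (N := N) (s := s) (M := M) M g
    have h2 := PM_bag hμ hc (q (s M)) hdep
    have h3 := hX.bag M le_rfl _ hdep
    show _ = ∑ b, nuB (KK E μ) E q N s M M b * g b
    rw [h1, h2, ← h3]
    have hm : min (M + 1) M = M := by omega
    simp only [hm]

end pair

/-! ### harmonicity -/

section harm

variable {E : Elim n} {q : ℕ → Fin n} {N : ℕ} {s : ℕ → ℕ} {M : ℕ}
  {K : Fin n → (Fin n → Bool) → Bool → ℝ}

/-- the joint masses of the guess and the states -/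
noncomputable def numB (K : Fin n → (Fin n → Bool) → Bool → ℝ) (E : Elim n) (q : ℕ → Fin n)
    (N : ℕ) (s : ℕ → ℕ) (M : ℕ) (F : (Fin n → Bool) → ℝ) (i : ℕ) (a : Fin n → Bool) : ℝ :=
  PM K fun X => F X * indB E q N s M i a X

/-- the conditional probabilities of the guess -/
noncomputable def psiB (K : Fin n → (Fin n → Bool) → Bool → ℝ) (E : Elim n) (q : ℕ → Fin n)
    (N : ℕ) (s : ℕ → ℕ) (M : ℕ) (F : (Fin n → Bool) → ℝ) (i : ℕ) (a : Fin n → Bool) : ℝ :=
  if i = 0 then F a else numB K E q N s M F i a / nuB K E q N s M i a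

theorem psiB_zero (F : (Fin n → Bool) → ℝ) : psiB K E q N s M F 0 = F := by
  funext a
  simp [psiB]

theorem numB_nonneg (hK : Ker E.A K) {F : (Fin n → Bool) → ℝ} (hF : ∀ X, F X = 0 ∨ F X = 1)
    (i : ℕ) (a : Fin n → Bool) : 0 ≤ numB K E q N s M F i a := by
  refine PM_nonneg hK fun X => mul_nonneg ?_ (indB_nonneg _ _ _)
  rcases hF X with h | h <;> rw [h] <;> norm_num

theorem numB_le (hK : Ker E.A K) {F : (Fin n → Bool) → ℝ} (hF : ∀ X, F X = 0 ∨ F X = 1)
    (i : ℕ) (a : Fin n → Bool) : numB K E q N s M F i a ≤ nuB K E q N s M i a := by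
  refine PM_mono hK fun X => ?_
  have h1 := indB_nonneg (E := E) (q := q) (N := N) (s := s) (M := M) i a X
  rcases hF X with h | h <;> rw [h] <;> linarith

theorem Db_zero (hs : Blk E q N s M) : Db E q N s M 0 = E.A (q 1) := by
  rw [Db_lt hs.pos, hs.zero]

/-- `nu * psi` is the joint mass -/
theorem nu_psiB (hK : Ker E.A K) (hs : Blk E q N s M) {F : (Fin n → Bool) → ℝ}
    (hF : ∀ X, F X = 0 ∨ F X = 1) (hd : DepOn (E.A (q 1) : Set (Fin n)) F)
    (i : ℕ) (a : Fin n → Bool) :
    nuB K E q N s M i a * psiB K E q N s M F i a = numB K E q N s M F i a := by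
  by_cases hi : i = 0
  · subst hi
    rw [psiB_zero, mul_comm]
    unfold nuB numB
    rw [← PM_smul]
    congr 1
    funext X
    unfold indB
    by_cases h : mask (Db E q N s M 0) X = a
    · rw [if_pos h, ← h]
      have h1 : F (mask (Db E q N s M 0) X) = F X := by
        rw [Db_zero hs]
        exact hd.mask X
      rw [h1]
    · rw [if_neg h, mul_zero, mul_zero]
  · unfold psiB
    rw [if_neg hi]
    by_cases h : nuB K E q N s M i a = 0
    · have h1 := numB_nonneg (E := E) (q := q) (N := N) (s := s) (M := M) hK hF i a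
      have h2 := numB_le (E := E) (q := q) (N := N) (s := s) (M := M) hK hF i a
      rw [h] at h2 ⊢
      rw [zero_mul]
      exact le_antisymm h1 h2
    · field_simp

/-- **the Markov step** over a whole block -/
theorem stepB (hK : Ker E.A K) (hp : Path E q N) (hs : Blk E q N s M)
    {F : (Fin n → Bool) → ℝ}
    (hd : DepOn (E.Out (q 1)) F) (i : ℕ) (hi : i < M) (b : Fin n → Bool) :
    ∃ u : (Fin n → Bool) → ℝ,
      (∀ a, ppB K E q N s M i a b = nuB K E q N s M i a * u a) ∧
      ∑ a, numB K E q N s M F i a * u a = numB K E q N s M F (i + 1) b := by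
  have hsi := hs.lt_N hi
  have hsl := hs.lt i hi
  have hsn := hs.le (i := i + 1) hi
  have hp' := shift hp hsi
  have hind : DepOn (E.B (q (s (i + 1))) : Set (Fin n)) (indB E q N s M (i + 1) b) :=
    (indB_dep (i + 1) b).mono (Finset.coe_subset.2 (Db_succ_sub hp hs i hi))
  have hind' : DepOn (E.B ((fun l => q (s i + l)) (s (i + 1) - s i)) : Set (Fin n))
      (indB E q N s M (i + 1) b) := by
    have e : s i + (s (i + 1) - s i) = s (i + 1) := by omega
    show DepOn (E.B (q (s i + (s (i + 1) - s i))) : Set (Fin n)) _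
    rw [e]
    exact hind
  obtain ⟨hu, hbk⟩ := back_spec hK hp' (s (i + 1) - s i) (by omega) (by omega) _ hind'
  obtain ⟨u, hudef⟩ : ∃ u, u = back K (fun l => q (s i + l)) (s (i + 1) - s i)
      (indB E q N s M (i + 1) b) := ⟨_, rfl⟩
  rw [← hudef] at hu hbk
  have hu' : DepOn (Db E q N s M i : Set (Fin n)) u := by
    rw [Db_lt hi]; exact hu
  refine ⟨u, fun a => ?_, ?_⟩
  · have hia : DepOn (E.Out (q (s i + 1))) (indB E q N s M i a) := by
      refine (indB_dep i a).mono ?_
      rw [Db_lt hi]
      exact Elim.A_sub_out_self _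
    unfold ppB
    rw [hbk _ hia, mul_comm]
    unfold nuB
    rw [← PM_smul]
    congr 1
    funext X
    unfold indB
    by_cases h : mask (Db E q N s M i) X = a
    · rw [if_pos h, ← h, one_mul, mul_one]
      exact (hu'.mask X).symm
    · rw [if_neg h, zero_mul, mul_zero]
  · have h1 := PM_expand (K := K) (Db E q N s M i) F u
    have h2 : (fun X => F X * u (mask (Db E q N s M i) X)) = fun X => F X * u X := by
      funext X
      rw [hu'.mask X]
    have h3 : PM K (fun X => F X * u X) = numB K E q N s M F (i + 1) b := by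
      refine (hbk _ (hd.mono ?_)).symm
      exact hp.out_sub (by omega) (by omega)
    rw [← h3, ← h2, h1]
    refine Finset.sum_congr rfl fun a _ => ?_
    rw [mul_comm]
    rfl

/-- **harmonicity of the conditional probabilities** -/
theorem harmB (hK : Ker E.A K) (hp : Path E q N) (hs : Blk E q N s M)
    {F : (Fin n → Bool) → ℝ}
    (hF : ∀ X, F X = 0 ∨ F X = 1) (hd : DepOn (E.A (q 1) : Set (Fin n)) F)
    (i : ℕ) (hi : i < M) (b : Fin n → Bool) :
    ∑ a, ppB K E q N s M i a b * psiB K E q N s M F i a =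
      nuB K E q N s M (i + 1) b * psiB K E q N s M F (i + 1) b := by
  obtain ⟨u, h1, h2⟩ := stepB hK hp hs (hd.mono (Elim.A_sub_out_self _)) i hi b
  rw [nu_psiB hK hs hF hd, ← h2]
  refine Finset.sum_congr rfl fun a _ => ?_
  rw [h1 a, ← nu_psiB hK hs hF hd i a]
  ring

end harm

/-! ### The comparison -/

section comp

variable {E : Elim n} {q : ℕ → Fin n} {N : ℕ} {s : ℕ → ℕ} {M : ℕ}

/-- **Comparison**: the guesses of the Markov law are not much better. Only the ADHESIONS
`E.A (q (s i + 1))` have to be small. -/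
theorem guessB {μ : Fin n → (Fin n → Bool) → ℝ} (hμ : ∀ t, IsLaw (μ t)) (hc : Cons E μ)
    {k : ℕ} (hA : ∀ i < M, (E.A (q (s i + 1))).card ≤ k) (hp : Path E q N)
    (hs : Blk E q N s M) {c : ℝ} {Ω : Type} [Fintype Ω]
    {w : Ω → ℝ} {X : ℕ → Ω → (Fin n → Bool)} (hX : CoupB E μ q N s M c w X)
    {F : (Fin n → Bool) → ℝ} (hF : ∀ X, F X = 0 ∨ F X = 1)
    (hd : DepOn (E.A (q 1) : Set (Fin n)) F) :
    c ≤ H254.KK (2 ^ (k + 1)) * PM (KK E μ) fun X => |F X - val (q N) X| := by
  have hK := KK_ker (E := E) hμ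
  have hM := hs.pos
  have hAM := atMostB (q := q) (N := N) (s := s) (M := M) hK (k := k + 1) (by omega)
    fun t ht => (hA t ht).trans (by omega)
  have hHP := hasPairsB hμ hc hp hs hX
  have h1 := H254.comparison' (PLB hK q N s M) F hAM hF (val_cases (q N)) hHP
    (ψ := psiB (KK E μ) E q N s M F) (psiB_zero F) (harmB hK hp hs hF hd)
  have hAB : (E.A (q 1) : Set (Fin n)) ⊆ (E.B (q 0) : Set (Fin n)) :=
    Finset.coe_subset.2 (hp.A_sub hp.pos)
  refine (hX.far F hF (hd.mono hAB)).trans ?_
  have h2 : ∑ ω, w ω * |F (X 0 ω) - (if X M ω (q N) = true then 1 else 0)| =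
      ∑ ω, w ω * |F (mask (Db E q N s M 0) (X (min (0 + 1) M) ω)) -
        val (q N) (mask (Db E q N s M M) (X (min (M + 1) M) ω))| := by
    refine Finset.sum_congr rfl fun ω _ => ?_
    by_cases hw : w ω = 0
    · rw [hw, zero_mul, zero_mul]
    · have e1 : min (0 + 1) M = 1 := by omega
      have e2 : min (M + 1) M = M := by omega
      rw [e1, e2]
      have e3 : F (mask (Db E q N s M 0) (X 1 ω)) = F (X 0 ω) := by
        rw [Db_zero hs, hd.mask]
        refine (hd _ _ fun v hv => ?_).symm
        refine hX.agree 0 hM ω hw v ?_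
        rw [hs.zero]
        exact Finset.mem_coe.1 hv
      have e4 : val (q N) (mask (Db E q N s M M) (X M ω)) = val (q N) (X M ω) := by
        refine val_dep (q N) _ _ fun v hv => ?_
        rw [Set.mem_singleton_iff] at hv
        rw [hv, Db_last]
        exact mask_of_mem (Finset.mem_singleton_self _) _
      rw [e3, e4]
      rfl
  rw [h2]
  refine h1.trans (le_of_eq ?_)
  congr 1
  -- the right-hand side
  show ∑ b, nuB (KK E μ) E q N s M M b * |psiB (KK E μ) E q N s M F M b - val (q N) b| = _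
  have h3 : (fun X => |F X - val (q N) X|) = fun X =>
      ∑ b, (val (q N) b * (indB E q N s M M b X + (-1) * (F X * indB E q N s M M b X)) +
        (1 - val (q N) b) * (F X * indB E q N s M M b X)) := by
    funext X
    have e1 : ∑ b, (val (q N) b * (indB E q N s M M b X + (-1) * (F X * indB E q N s M M b X)) +
        (1 - val (q N) b) * (F X * indB E q N s M M b X)) =
        ∑ b, ((val (q N) b * (1 - F X) + (1 - val (q N) b) * F X) * indB E q N s M M b X) :=
      Finset.sum_congr rfl fun b _ => by ring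
    rw [e1, sum_indB (E := E) (q := q) (N := N) (s := s) (M := M) M X
      fun b => val (q N) b * (1 - F X) + (1 - val (q N) b) * F X]
    have e4 : val (q N) (mask (Db E q N s M M) X) = val (q N) X := by
      refine val_dep (q N) _ _ fun v hv => ?_
      rw [Set.mem_singleton_iff] at hv
      rw [hv, Db_last]
      exact mask_of_mem (Finset.mem_singleton_self _) _
    rw [e4]
    rcases hF X with h | h <;> rcases val_cases (q N) X with h' | h' <;> rw [h, h'] <;> norm_num
  rw [h3, PM_sum]
  refine Finset.sum_congr rfl fun b _ => ?_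
  rw [PM_add, PM_smul, PM_smul, PM_add, PM_smul]
  have h4 := nu_psiB (E := E) (q := q) hK hs hF hd M b
  have h5 := numB_nonneg (E := E) (q := q) (N := N) (s := s) (M := M) hK hF M b
  have h6 := numB_le (E := E) (q := q) (N := N) (s := s) (M := M) hK hF M b
  show _ = val (q N) b * (nuB (KK E μ) E q N s M M b + (-1) * numB (KK E μ) E q N s M F M b) +
    (1 - val (q N) b) * numB (KK E μ) E q N s M F M b
  have h7 : 0 ≤ nuB (KK E μ) E q N s M M b := h5.trans h6
  rw [← abs_of_nonneg h7, ← abs_mul, abs_of_nonneg h7, mul_sub, h4]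
  rcases val_cases (q N) b with h' | h'
  · rw [h', mul_zero, sub_zero, abs_of_nonneg h5]
    ring
  · rw [h', mul_one, abs_of_nonpos (by linarith)]
    ring

/-- **Far vertices are separated.** -/
theorem far_pairB {μ : Fin n → (Fin n → Bool) → ℝ} (hμ : ∀ t, IsLaw (μ t)) (hc : Cons E μ)
    {k : ℕ} (hA : ∀ i < M, (E.A (q (s i + 1))).card ≤ k) (hp : Path E q N)
    (hs : Blk E q N s M) {c : ℝ} {Ω : Type} [Fintype Ω]
    {w : Ω → ℝ} {X : ℕ → Ω → (Fin n → Bool)} (hX : CoupB E μ q N s M c w X)
    {y : Fin n} (hy : y ∈ E.Out (q 1)) :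
    c ≤ H254.KK (2 ^ (k + 1)) *
      PM (KK E μ) fun X => if X (q N) = X y then 0 else 1 := by
  have hK := KK_ker (E := E) hμ
  have hval : DepOn (E.B (q N) : Set (Fin n)) (val (q N)) := (val_dep (q N)).mono (by
    rw [Set.singleton_subset_iff]
    exact Finset.mem_coe.2 (Finset.mem_insert_self _ _))
  obtain ⟨hm, hbk⟩ := back_spec hK hp N hp.pos le_rfl _ hval
  set m := back (KK E μ) q N (val (q N)) with hmdef
  set F : (Fin n → Bool) → ℝ := fun X => if 1 / 2 < m X then 1 else 0 with hFdef
  have hF : ∀ X, F X = 0 ∨ F X = 1 := fun X => by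
    rw [hFdef]; dsimp only; split_ifs <;> simp
  have hFd : DepOn (E.A (q 1) : Set (Fin n)) F := by
    intro X Y h
    rw [hFdef]
    dsimp only
    rw [hm X Y h]
  have h1 := guessB hμ hc hA hp hs hX hF hFd
  refine h1.trans (mul_le_mul_of_nonneg_left ?_ ?_)
  · have h2 : ∀ G : (Fin n → Bool) → ℝ, (∀ X, G X = 0 ∨ G X = 1) → DepOn (E.Out (q 1)) G →
        PM (KK E μ) (fun X => |G X - val (q N) X|) =
          PM (KK E μ) fun X => G X + (1 - 2 * G X) * m X := by
      intro G hG hGd
      have e1 : (fun X => |G X - val (q N) X|) = fun X => G X + (1 - 2 * G X) * val (q N) X := by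
        funext X
        rcases hG X with h | h <;> rcases val_cases (q N) X with h' | h' <;> rw [h, h'] <;>
          norm_num
      rw [e1, PM_add, PM_add]
      congr 1
      refine hbk (fun X => 1 - 2 * G X) ?_
      intro X Y h
      show 1 - 2 * G X = 1 - 2 * G Y
      rw [hGd X Y h]
    have hy1 : DepOn (E.Out (q 1)) (H684.val y) := (val_dep y).mono (by
      rw [Set.singleton_subset_iff]; exact hy)
    rw [h2 F hF (hFd.mono (Elim.A_sub_out_self _))]
    have e2 : (fun X : Fin n → Bool => if X (q N) = X y then (0 : ℝ) else 1) =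
        fun X => |val y X - val (q N) X| := by
      funext X
      unfold _root_.Vale.Agent.P235.H684.val
      cases X (q N) <;> cases X y <;> simp
    rw [e2, h2 (val y) (val_cases y) hy1]
    refine PM_mono hK fun X => ?_
    rw [hFdef]
    dsimp only
    rcases val_cases y X with h | h <;> rw [h] <;> split_ifs with h' <;> linarith
  · unfold H254.KK
    positivity

end comp

end Vale.Agent.P235.K5.H684
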